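import Mathlib

/-!
# Seymour's second neighbourhood conjecture (problem P038)

Self-contained proof, cardinalities only.
-/

open Finset

namespace Vale.Agent.P038.H940

variable {V : Type*} [Fintype V] [DecidableEq V]

/-! ### Closed neighbourhoods of sets -/

/-- Union of the sets `N v`, `v ∈ X`. -/
def NS (N : V → Finset V) (X : Finset V) : Finset V := X.biUnion N

/-- The vertices `x` with `x ∈ P s` for all closed in-neighbours `s` of `a`. -/
def IL (N : V → Finset V) (P : V → Finset V) (a : V) : Finset V :=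
  univ.filter fun x => ∀ s, a ∈ N s → x ∈ P s

/-- `|N[S] ∩ W| - |S|`. -/
def cW (N : V → Finset V) (W S : Finset V) : ℤ := ((NS N S ∩ W).card : ℤ) - S.card

variable {N : V → Finset V}

theorem mem_NS {X : Finset V} {y : V} : y ∈ NS N X ↔ ∃ x ∈ X, y ∈ N x := by
  simp [NS]

theorem mem_IL {P : V → Finset V} {a x : V} : x ∈ IL N P a ↔ ∀ s, a ∈ N s → x ∈ P s := by
  simp [IL]

theorem NS_mono {X Y : Finset V} (h : X ⊆ Y) : NS N X ⊆ NS N Y :=
  biUnion_subset_biUnion_of_subset_left _ h

theorem sub_NS (hN : ∀ v, v ∈ N v) (X : Finset V) : X ⊆ NS N X := fun x hx =>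
  mem_NS.2 ⟨x, hx, hN x⟩

theorem NS_union (X Y : Finset V) : NS N (X ∪ Y) = NS N X ∪ NS N Y := by
  ext y
  simp only [mem_NS, mem_union]
  constructor
  · rintro ⟨x, hx | hx, h⟩
    · exact Or.inl ⟨x, hx, h⟩
    · exact Or.inr ⟨x, hx, h⟩
  · rintro (⟨x, hx, h⟩ | ⟨x, hx, h⟩)
    · exact ⟨x, Or.inl hx, h⟩
    · exact ⟨x, Or.inr hx, h⟩

theorem cW_sub (W S T : Finset V) :
    cW N W (S ∪ T) + cW N W (S ∩ T) ≤ cW N W S + cW N W T := by
  unfold cW
  have h1 : NS N (S ∪ T) ∩ W = (NS N S ∩ W) ∪ (NS N T ∩ W) := by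
    rw [NS_union, union_inter_distrib_right]
  have h2 : NS N (S ∩ T) ∩ W ⊆ (NS N S ∩ W) ∩ (NS N T ∩ W) := by
    intro y hy
    rw [mem_inter] at hy
    exact mem_inter.2 ⟨mem_inter.2 ⟨NS_mono inter_subset_left hy.1, hy.2⟩,
      mem_inter.2 ⟨NS_mono inter_subset_right hy.1, hy.2⟩⟩
  have h3 := card_le_card h2
  have h4 := card_union_add_card_inter (NS N S ∩ W) (NS N T ∩ W)
  have h5 := card_union_add_card_inter S T
  rw [h1]
  omega

theorem cW_insert {W : Finset V} {y : V} (hy : y ∉ W) (S : Finset V) :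
    cW N (insert y W) S = cW N W S + if y ∈ NS N S then 1 else 0 := by
  unfold cW
  split_ifs with h
  · rw [inter_insert_of_mem h, card_insert_of_notMem (fun h' => hy (mem_inter.1 h').2)]
    push_cast
    ring
  · rw [inter_insert_of_notMem h]
    ring

/-! ### Minimisers -/

/-- `T` is a minimiser of `f` on `[P, Q]`. -/
def IsMn (f : Finset V → ℤ) (P Q T : Finset V) : Prop :=
  P ⊆ T ∧ T ⊆ Q ∧ ∀ S, P ⊆ S → S ⊆ Q → f T ≤ f S

/-- `T` is a minimiser of `f` on `[P, Q]` with the least number of elements. -/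
def IsSm (f : Finset V → ℤ) (P Q T : Finset V) : Prop :=
  IsMn f P Q T ∧ ∀ S, IsMn f P Q S → T.card ≤ S.card

theorem exists_sm (f : Finset V → ℤ) {P Q : Finset V} (h : P ⊆ Q) : ∃ T, IsSm f P Q T := by
  classical
  obtain ⟨T, hT, hm⟩ := exists_min_image (univ.filter fun S => P ⊆ S ∧ S ⊆ Q) f
    ⟨P, by simp [h]⟩
  simp only [mem_filter, mem_univ, true_and] at hT hm
  have hmn : IsMn f P Q T := ⟨hT.1, hT.2, fun S h1 h2 => hm S ⟨h1, h2⟩⟩
  obtain ⟨T', hT', hm'⟩ := exists_min_image (univ.filter fun S => IsMn f P Q S) card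
    ⟨T, by simp [hmn]⟩
  simp only [mem_filter, mem_univ, true_and] at hT' hm'
  exact ⟨T', hT', hm'⟩

theorem uncross {f : Finset V → ℤ} (hf : ∀ S T, f (S ∪ T) + f (S ∩ T) ≤ f S + f T)
    {P P' Q Q' S T : Finset V} (hP : P ⊆ P') (hQ : Q ⊆ Q') (hS : IsSm f P Q S)
    (hT : IsMn f P' Q' T) : S ⊆ T := by
  obtain ⟨⟨s1, s2, s3⟩, s4⟩ := hS
  obtain ⟨t1, t2, t3⟩ := hT
  have h1 : f T ≤ f (S ∪ T) :=
    t3 _ (t1.trans subset_union_right) (union_subset (s2.trans hQ) t2)
  have h2 := hf S T
  have h3 : f (S ∩ T) ≤ f S := by linarith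
  have h4 : IsMn f P Q (S ∩ T) :=
    ⟨subset_inter s1 (hP.trans t1), inter_subset_left.trans s2, fun R r1 r2 =>
      h3.trans (s3 R r1 r2)⟩
  have h5 := s4 _ h4
  have h6 : S ∩ T = S := eq_of_subset_of_card_le inter_subset_left h5
  rw [← h6]
  exact inter_subset_right

/-! ### The gap inequality -/

section Gap

variable {B U : V → Finset V}

theorem step (hC : ∀ b (J : Finset V), (∀ a ∈ J, b ∈ U a ∧ b ∉ B a) →
      J.card ≤ (univ.filter fun a => b ∈ IL N U a ∧ ∃ s ∈ J, a ∈ N s).card)
    {f : Finset V → ℤ} (hf : ∀ S T, f (S ∪ T) + f (S ∩ T) ≤ f S + f T) (y : V)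
    (T T' : V → Finset V) (hT : ∀ a, IsMn f (B a) (U a) (T a))
    (hT' : ∀ a, IsSm f (IL N B a) (IL N U a) (T' a)) :
    (univ.filter fun a => y ∈ NS N (U a) ∧ y ∉ NS N (T a)).card ≤
      (univ.filter fun a => y ∈ NS N (IL N U a) ∧ y ∉ NS N (T' a)).card := by
  classical
  set L0 := univ.filter fun a => y ∈ NS N (U a) ∧ y ∉ NS N (T a) with hL0
  set L1 := univ.filter fun a => y ∈ NS N (IL N U a) ∧ y ∉ NS N (T' a) with hL1
  -- (i)
  have hi : ∀ z a, z ∈ N a → T' z ⊆ T a := by
    intro z a hza
    refine uncross hf ?_ ?_ (hT' z) (hT a)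
    · intro x hx
      exact mem_IL.1 hx a hza
    · intro x hx
      exact mem_IL.1 hx a hza
  -- the rank
  let r : V → ℕ := fun v => (Fintype.equivFin V v : ℕ)
  have hr : Function.Injective r := fun a b h =>
    (Fintype.equivFin V).injective (Fin.ext h)
  have hx : ∀ a : V, ∃ x : V, a ∈ L0 → (y ∈ N x ∧ x ∈ U a) ∧
      ∀ x', y ∈ N x' → x' ∈ U a → r x ≤ r x' := by
    intro a
    by_cases ha : a ∈ L0
    · rw [hL0, mem_filter] at ha
      obtain ⟨x0, hx0, hy0⟩ := mem_NS.1 ha.2.1
      obtain ⟨x, hx, hm⟩ := exists_min_image (univ.filter fun x => y ∈ N x ∧ x ∈ U a) r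
        ⟨x0, by simp [hx0, hy0]⟩
      simp only [mem_filter, mem_univ, true_and] at hx hm
      exact ⟨x, fun _ => ⟨hx, fun x' h1 h2 => hm x' ⟨h1, h2⟩⟩⟩
    · exact ⟨a, fun h => absurd h ha⟩
  choose xi hxi using hx
  let S : V → Finset V := fun x => L0.filter fun a => xi a = x
  let Z : V → Finset V := fun x =>
    univ.filter fun a => x ∈ IL N U a ∧ ∃ s ∈ S x, a ∈ N s
  have hSx : ∀ x, ∀ a ∈ S x, a ∈ L0 ∧ xi a = x := fun x a ha => by
    simpa [S] using ha
  have hcard : L0.card = ∑ x, (S x).card := by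
    exact card_eq_sum_card_fiberwise (fun a _ => mem_coe.2 (mem_univ (xi a)))
  have hSZ : ∀ x, (S x).card ≤ (Z x).card := by
    intro x
    refine hC x (S x) ?_
    intro a ha
    obtain ⟨h1, h2⟩ := hSx x a ha
    have h3 := hxi a h1
    rw [h2] at h3
    refine ⟨h3.1.2, fun hb => ?_⟩
    rw [hL0, mem_filter] at h1
    exact h1.2.2 (mem_NS.2 ⟨x, (hT a).1 hb, h3.1.1⟩)
  have hdis : ∀ x ∈ (univ : Finset V), ∀ x' ∈ (univ : Finset V), x ≠ x' →
      Disjoint (Z x) (Z x') := by
    have key : ∀ x x' z, z ∈ Z x → z ∈ Z x' → r x' ≤ r x := by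
      intro x x' z h1 h2
      simp only [Z, mem_filter, mem_univ, true_and] at h1 h2
      obtain ⟨_, s, hs, hzs⟩ := h2
      obtain ⟨s', hs', hzs'⟩ := h1.2
      obtain ⟨g1, g2⟩ := hSx x' s hs
      obtain ⟨k1, k2⟩ := hSx x s' hs'
      have g3 := hxi s g1
      have k3 := hxi s' k1
      rw [g2] at g3
      rw [k2] at k3
      exact g3.2 x k3.1.1 (mem_IL.1 h1.1 s hzs)
    intro x _ x' _ hne
    rw [disjoint_left]
    intro z h1 h2
    exact hne (hr (le_antisymm (key x' x z h2 h1) (key x x' z h1 h2)))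
  have hZL : univ.biUnion Z ⊆ L1 := by
    intro z hz
    obtain ⟨x, _, hzx⟩ := mem_biUnion.1 hz
    simp only [Z, mem_filter, mem_univ, true_and] at hzx
    obtain ⟨h1, s, hs, hzs⟩ := hzx
    obtain ⟨g1, g2⟩ := hSx x s hs
    have g3 := hxi s g1
    rw [g2] at g3
    rw [hL1, mem_filter]
    refine ⟨mem_univ _, mem_NS.2 ⟨x, h1, g3.1.1⟩, fun hy => ?_⟩
    rw [hL0, mem_filter] at g1
    exact g1.2.2 (NS_mono (hi z s hzs) hy)
  calc L0.card = ∑ x, (S x).card := hcard
    _ ≤ ∑ x, (Z x).card := sum_le_sum fun x _ => hSZ x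
    _ = (univ.biUnion Z).card := (card_biUnion hdis).symm
    _ ≤ L1.card := card_le_card hZL

theorem gap (hBU : ∀ a, B a ⊆ U a)
    (hR : ∀ a Y, B a ⊆ Y → Y ⊆ U a → cW N univ (B a) ≤ cW N univ Y)
    (hC : ∀ b (J : Finset V), (∀ a ∈ J, b ∈ U a ∧ b ∉ B a) →
      J.card ≤ (univ.filter fun a => b ∈ IL N U a ∧ ∃ s ∈ J, a ∈ N s).card) :
    ∑ a, (cW N univ (U a) - cW N univ (B a)) ≤
      ∑ a, (cW N univ (IL N U a) - cW N univ (IL N B a)) := by
  classical
  have hIL : ∀ a, IL N B a ⊆ IL N U a := fun a x hx =>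
    mem_IL.2 fun s hs => hBU s (mem_IL.1 hx s hs)
  choose T hT using fun (W : Finset V) a => exists_sm (cW N W) (hBU a)
  choose T' hT' using fun (W : Finset V) a => exists_sm (cW N W) (hIL a)
  have claim : ∀ W : Finset V, ∑ a, (cW N W (U a) - cW N W (T W a)) ≤
      ∑ a, (cW N W (IL N U a) - cW N W (T' W a)) := by
    intro W
    induction W using Finset.induction_on with
    | empty =>
      have h1 : ∀ a, cW N ∅ (U a) - cW N ∅ (T ∅ a) ≤ 0 := by
        intro a
        have h := card_le_card (hT ∅ a).1.2.1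
        simp only [cW, inter_empty, card_empty]
        push_cast
        omega
      have h2 : ∀ a, 0 ≤ cW N ∅ (IL N U a) - cW N ∅ (T' ∅ a) := by
        intro a
        have h := (hT' ∅ a).1.2.2 (IL N U a) (hIL a) (subset_refl _)
        linarith
      exact (sum_nonpos fun a _ => h1 a).trans (sum_nonneg fun a _ => h2 a)
    | insert y W hy ih =>
      -- increments on the left
      have hl : ∀ a, cW N (insert y W) (U a) - cW N (insert y W) (T (insert y W) a) ≤
          (cW N W (U a) - cW N W (T W a)) +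
            if y ∈ NS N (U a) ∧ y ∉ NS N (T W a) then 1 else 0 := by
        intro a
        have e1 := cW_insert (N := N) hy (U a)
        have e2 := cW_insert (N := N) hy (T (insert y W) a)
        have m1 := (hT W a).1.2.2 _ (hT (insert y W) a).1.1 (hT (insert y W) a).1.2.1
        have hsub := (hT W a).1.2.1
        rw [e1, e2]
        by_cases c1 : y ∈ NS N (T (insert y W) a)
        · have c2 : y ∈ NS N (U a) := NS_mono (hT (insert y W) a).1.2.1 c1
          rw [if_pos c1, if_pos c2]
          split_ifs <;> linarith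
        · by_cases c3 : y ∈ NS N (T W a)
          · have c2 : y ∈ NS N (U a) := NS_mono hsub c3
            have m2 : cW N W (T W a) < cW N W (T (insert y W) a) := by
              refine lt_of_le_of_ne m1 fun he => c1 ?_
              have hmn : IsMn (cW N W) (B a) (U a) (T (insert y W) a) :=
                ⟨(hT (insert y W) a).1.1, (hT (insert y W) a).1.2.1, fun S s1 s2 => by
                  rw [← he]
                  exact (hT W a).1.2.2 S s1 s2⟩
              exact NS_mono (uncross (cW_sub W) (subset_refl _) (subset_refl _) (hT W a) hmn) c3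
            rw [if_neg c1, if_pos c2]
            split_ifs <;> linarith
          · rw [if_neg c1]
            by_cases c2 : y ∈ NS N (U a)
            · rw [if_pos c2, if_pos ⟨c2, c3⟩]
              linarith
            · rw [if_neg c2, if_neg (fun h => c2 h.1)]
              linarith
      -- increments on the right
      have hr : ∀ a, (cW N W (IL N U a) - cW N W (T' W a)) +
            (if y ∈ NS N (IL N U a) ∧ y ∉ NS N (T' W a) then 1 else 0) ≤
          cW N (insert y W) (IL N U a) - cW N (insert y W) (T' (insert y W) a) := by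
        intro a
        have e1 := cW_insert (N := N) hy (IL N U a)
        have e2 := cW_insert (N := N) hy (T' W a)
        have m1 := (hT' (insert y W) a).1.2.2 _ (hT' W a).1.1 (hT' W a).1.2.1
        have hsub := NS_mono (N := N) (hT' W a).1.2.1
        rw [e1]
        rw [e2] at m1
        by_cases c1 : y ∈ NS N (T' W a)
        · rw [if_pos c1] at m1
          rw [if_pos (hsub c1), if_neg (fun h => h.2 c1)]
          linarith
        · rw [if_neg c1] at m1
          by_cases c2 : y ∈ NS N (IL N U a)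
          · rw [if_pos c2, if_pos ⟨c2, c1⟩]
            linarith
          · rw [if_neg c2, if_neg (fun h => c2 h.1)]
            linarith
      have hs := step hC (cW_sub W) y (T W) (T' W) (fun a => (hT W a).1) (hT' W)
      calc ∑ a, (cW N (insert y W) (U a) - cW N (insert y W) (T (insert y W) a))
          ≤ ∑ a, ((cW N W (U a) - cW N W (T W a)) +
            if y ∈ NS N (U a) ∧ y ∉ NS N (T W a) then (1 : ℤ) else 0) :=
            sum_le_sum fun a _ => hl a
        _ = ∑ a, (cW N W (U a) - cW N W (T W a)) +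
            ((univ.filter fun a => y ∈ NS N (U a) ∧ y ∉ NS N (T W a)).card : ℤ) := by
            rw [sum_add_distrib, sum_boole]
        _ ≤ ∑ a, (cW N W (IL N U a) - cW N W (T' W a)) +
            ((univ.filter fun a => y ∈ NS N (IL N U a) ∧ y ∉ NS N (T' W a)).card : ℤ) :=
            add_le_add ih (by exact_mod_cast hs)
        _ = ∑ a, ((cW N W (IL N U a) - cW N W (T' W a)) +
            if y ∈ NS N (IL N U a) ∧ y ∉ NS N (T' W a) then (1 : ℤ) else 0) := by
            rw [sum_add_distrib, sum_boole]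
        _ ≤ _ := sum_le_sum fun a _ => hr a
  have hfin := claim univ
  have hB : ∀ a, IsMn (cW N univ) (B a) (U a) (B a) := fun a =>
    ⟨subset_refl _, hBU a, hR a⟩
  have h1 : ∀ a, cW N univ (T univ a) = cW N univ (B a) := fun a =>
    le_antisymm ((hT univ a).1.2.2 _ (subset_refl _) (hBU a))
      (hR a _ (hT univ a).1.1 (hT univ a).1.2.1)
  have h2 : ∀ a, T' univ a = IL N B a := by
    intro z
    refine subset_antisymm ?_ (hT' univ z).1.1
    intro x hx
    refine mem_IL.2 fun a hza => ?_
    refine uncross (cW_sub univ) ?_ ?_ (hT' univ z) (hB a) hx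
    · intro x hx
      exact mem_IL.1 hx a hza
    · intro x hx
      exact mem_IL.1 hx a hza
  simp only [h1, h2] at hfin
  exact hfin

end Gap

/-! ### Pairs of families -/

section Pairs

/-- An outer pair. -/
structure Out (N : V → Finset V) (B C : V → Finset V) : Prop where
  left : ∀ a, N a ⊆ B a
  right : ∀ a, N a ⊆ C a
  orth : ∀ a b, b ∈ B a → a ∈ C b → a = b

/-- The cost of a pair. -/
def cost (N : V → Finset V) (B C : V → Finset V) : ℤ :=
  ∑ a, cW N univ (B a) + ∑ a, cW N univ (C a)

variable {B C : V → Finset V}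

theorem Out.symm (h : Out N B C) : Out N C B :=
  ⟨h.right, h.left, fun a b h1 h2 => (h.orth b a h2 h1).symm⟩

theorem IL_sub (hN : ∀ v, v ∈ N v) (P : V → Finset V) (a : V) : IL N P a ⊆ P a := fun _ hx =>
  mem_IL.1 hx a (hN a)

theorem Out.mem_IL (h : Out N B C) (a : V) : a ∈ IL N B a :=
  H940.mem_IL.2 fun s hs => h.left s hs

theorem Out.inner (hN : ∀ v, v ∈ N v) (h : Out N B C) {a b : V}
    (h1 : b ∈ NS N (IL N B a)) (h2 : a ∈ NS N (IL N C b)) : a = b := by
  obtain ⟨x, hx, hbx⟩ := mem_NS.1 h1
  obtain ⟨y, hy, hay⟩ := mem_NS.1 h2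
  have e1 : x ∈ B y := H940.mem_IL.1 hx y hay
  have e2 : y ∈ C x := H940.mem_IL.1 hy x hbx
  have e3 := h.orth y x e1 e2
  subst e3
  have e4 : a = y := h.orth a y (IL_sub hN _ _ hx) (h.right y hay)
  have e5 : y = b := h.orth y b (h.left y hbx) (IL_sub hN _ _ hy)
  exact e4.trans e5

theorem Out.next (hN : ∀ v, v ∈ N v) (h : Out N B C) :
    Out N (fun a => NS N (IL N B a)) (fun a => NS N (IL N C a)) where
  left a _ hx := mem_NS.2 ⟨a, h.mem_IL a, hx⟩
  right a _ hx := mem_NS.2 ⟨a, h.symm.mem_IL a, hx⟩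
  orth _ _ h1 h2 := h.inner hN h1 h2

theorem cW_univ (hN : ∀ v, v ∈ N v) (S : Finset V) :
    cW N univ S = ((NS N S \ S).card : ℤ) := by
  unfold cW
  rw [inter_univ, card_sdiff_of_subset (sub_NS hN S),
    Nat.cast_sub (card_le_card (sub_NS hN S))]

theorem sum_card_prod (f : V → Finset V) :
    ∑ a, ((f a).card : ℤ) = ((univ.filter fun p : V × V => p.2 ∈ f p.1).card : ℤ) := by
  rw [← univ_product_univ, card_filter, sum_product]
  push_cast
  refine sum_congr rfl fun a _ => ?_
  rw [sum_boole, filter_mem_eq_inter, univ_inter]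

theorem sum_card_prod' (f : V → Finset V) :
    ∑ a, ((f a).card : ℤ) = ((univ.filter fun p : V × V => p.1 ∈ f p.2).card : ℤ) := by
  rw [sum_card_prod]
  congr 1
  refine card_bij (fun p _ => (p.2, p.1)) ?_ ?_ ?_
  · simp
  · rintro ⟨a, b⟩ _ ⟨c, d⟩ _ h
    simpa [and_comm] using h
  · rintro ⟨a, b⟩ h
    exact ⟨(b, a), by simpa using h, rfl⟩

/-- The inequality for complete pairs. -/
theorem nogap (hN : ∀ v, v ∈ N v) {U : V → Finset V} (h : Out N U C)
    (hU : ∀ a b, b ≠ a → a ∉ C b → b ∈ U a) :
    cost N (fun a => IL N U a) (fun a => IL N C a) ≤ cost N U C := by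
  classical
  unfold cost
  simp only [cW_univ hN]
  rw [sum_card_prod (fun a => NS N (IL N U a) \ IL N U a),
    sum_card_prod' (fun a => NS N (IL N C a) \ IL N C a),
    sum_card_prod (fun a => NS N (U a) \ U a), sum_card_prod' (fun a => NS N (C a) \ C a)]
  have hd : Disjoint (univ.filter fun p : V × V => p.2 ∈ NS N (IL N U p.1) \ IL N U p.1)
      (univ.filter fun p : V × V => p.1 ∈ NS N (IL N C p.2) \ IL N C p.2) := by
    rw [disjoint_left]
    rintro ⟨a, b⟩ h1 h2
    simp only [mem_filter, mem_univ, true_and, mem_sdiff] at h1 h2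
    have := h.inner hN h1.1 h2.1
    subst this
    exact h1.2 (h.mem_IL a)
  have hs : (univ.filter fun p : V × V => p.2 ∈ NS N (IL N U p.1) \ IL N U p.1) ∪
      (univ.filter fun p : V × V => p.1 ∈ NS N (IL N C p.2) \ IL N C p.2) ⊆
      (univ.filter fun p : V × V => p.2 ∈ NS N (U p.1) \ U p.1) ∪
      (univ.filter fun p : V × V => p.1 ∈ NS N (C p.2) \ C p.2) := by
    rintro ⟨a, y⟩ hp
    simp only [mem_union, mem_filter, mem_univ, true_and, mem_sdiff] at hp ⊢
    rcases hp with ⟨h1, h2⟩ | ⟨h1, h2⟩
    · have h3 : y ∈ NS N (U a) := NS_mono (IL_sub hN _ _) h1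
      by_cases hy : y ∈ U a
      · right
        rw [H940.mem_IL] at h2
        push Not at h2
        obtain ⟨s, hs, hys⟩ := h2
        have hys' : y ≠ s := fun e => hys (e ▸ h.left s (hN s))
        have hsC : s ∈ C y := by
          by_contra hc
          exact hys (hU s y hys' hc)
        refine ⟨mem_NS.2 ⟨s, hsC, hs⟩, fun hc => ?_⟩
        have := h.orth a y hy hc
        subst this
        exact hys (h.left s hs)
      · exact Or.inl ⟨h3, hy⟩
    · have h3 : a ∈ NS N (C y) := NS_mono (IL_sub hN _ _) h1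
      by_cases hy : a ∈ C y
      · left
        rw [H940.mem_IL] at h2
        push Not at h2
        obtain ⟨s, hs, hys⟩ := h2
        have hys' : s ≠ a := fun e => hys (e ▸ h.right a (hN a))
        have hsU : s ∈ U a := hU a s hys' hys
        refine ⟨mem_NS.2 ⟨s, hsU, hs⟩, fun hc => ?_⟩
        have := h.orth a y hc hy
        subst this
        exact hys (h.right s hs)
      · exact Or.inr ⟨h3, hy⟩
  have h1 := card_le_card hs
  rw [card_union_of_disjoint hd] at h1
  have h2 := card_union_le (univ.filter fun p : V × V => p.2 ∈ NS N (U p.1) \ U p.1)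
    (univ.filter fun p : V × V => p.1 ∈ NS N (C p.2) \ C p.2)
  exact_mod_cast h1.trans h2

/-- The main inequality at an outer minimiser. -/
theorem club (hN : ∀ v, v ∈ N v) (h : Out N B C)
    (hmin : ∀ B' C', Out N B' C' → cost N B C ≤ cost N B' C') :
    cost N (fun a => IL N B a) (fun a => IL N C a) ≤ cost N B C := by
  classical
  let U : V → Finset V := fun a => univ.filter fun b => b = a ∨ a ∉ C b
  have mU : ∀ a b, b ∈ U a ↔ b = a ∨ a ∉ C b := by simp [U]
  have hBU : ∀ a, B a ⊆ U a := by
    intro a b hb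
    rw [mU]
    by_cases hc : a ∈ C b
    · exact Or.inl (h.orth a b hb hc).symm
    · exact Or.inr hc
  have hOU : Out N U C := by
    refine ⟨fun a => (h.left a).trans (hBU a), h.right, fun a b h1 h2 => ?_⟩
    rcases (mU a b).1 h1 with h3 | h3
    · exact h3.symm
    · exact absurd h2 h3
  have hR : ∀ a Y, B a ⊆ Y → Y ⊆ U a → cW N univ (B a) ≤ cW N univ Y := by
    intro a Y h1 h2
    have hO : Out N (Function.update B a Y) C := by
      refine ⟨fun b => ?_, h.right, fun b x hb hx => ?_⟩
      · by_cases e : b = a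
        · subst e
          simpa using (h.left b).trans h1
        · simpa [Function.update_of_ne e] using h.left b
      · by_cases e : b = a
        · subst e
          rw [Function.update_self] at hb
          rcases (mU b x).1 (h2 hb) with h3 | h3
          · exact h3.symm
          · exact absurd hx h3
        · rw [Function.update_of_ne e] at hb
          exact h.orth b x hb hx
    have h3 := hmin _ _ hO
    unfold cost at h3
    have h4 : ∑ b, cW N univ (Function.update B a Y b) =
        ∑ b, cW N univ (B b) - cW N univ (B a) + cW N univ Y := by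
      rw [← add_sum_erase univ _ (mem_univ a), ← add_sum_erase univ _ (mem_univ a),
        Function.update_self]
      have : ∑ b ∈ univ.erase a, cW N univ (Function.update B a Y b) =
          ∑ b ∈ univ.erase a, cW N univ (B b) := by
        refine sum_congr rfl fun b hb => ?_
        rw [Function.update_of_ne (ne_of_mem_erase hb)]
      rw [this]
      ring
    linarith
  have hCc : ∀ b (J : Finset V), (∀ a ∈ J, b ∈ U a ∧ b ∉ B a) →
      J.card ≤ (univ.filter fun a => b ∈ IL N U a ∧ ∃ s ∈ J, a ∈ N s).card := by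
    intro b J hJ
    have hO : Out N B (Function.update C b (C b ∪ J)) := by
      refine ⟨h.left, fun a => ?_, fun a x hb hx => ?_⟩
      · by_cases e : a = b
        · subst e
          simpa using (h.right a).trans subset_union_left
        · simpa [Function.update_of_ne e] using h.right a
      · by_cases e : x = b
        · subst e
          rw [Function.update_self, mem_union] at hx
          rcases hx with hx | hx
          · exact h.orth a x hb hx
          · exact absurd hb (hJ a hx).2
        · rw [Function.update_of_ne e] at hx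
          exact h.orth a x hb hx
    have h3 := hmin _ _ hO
    unfold cost at h3
    have h4 : ∑ a, cW N univ (Function.update C b (C b ∪ J) a) =
        ∑ a, cW N univ (C a) - cW N univ (C b) + cW N univ (C b ∪ J) := by
      rw [← add_sum_erase univ _ (mem_univ b), ← add_sum_erase univ _ (mem_univ b),
        Function.update_self]
      have : ∑ a ∈ univ.erase b, cW N univ (Function.update C b (C b ∪ J) a) =
          ∑ a ∈ univ.erase b, cW N univ (C a) := by
        refine sum_congr rfl fun a ha => ?_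
        rw [Function.update_of_ne (ne_of_mem_erase ha)]
      rw [this]
      ring
    have h5 : cW N univ (C b) ≤ cW N univ (C b ∪ J) := by linarith
    have hdisj : Disjoint (C b) J := by
      rw [disjoint_left]
      intro a ha ha'
      rcases (mU a b).1 (hJ a ha').1 with e | e
      · subst e
        exact (hJ b ha').2 (h.left b (hN b))
      · exact e ha
    unfold cW at h5
    rw [inter_univ, inter_univ, NS_union, card_union_of_disjoint hdisj] at h5
    have h6 : NS N (C b) ∪ NS N J = NS N (C b) ∪ (NS N J \ NS N (C b)) := by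
      rw [union_sdiff_self_eq_union]
    rw [h6, card_union_of_disjoint disjoint_sdiff] at h5
    push_cast at h5
    have h7 : (NS N J \ NS N (C b)).card ≤
        (univ.filter fun a => b ∈ IL N U a ∧ ∃ s ∈ J, a ∈ N s).card := by
      refine card_le_card fun a ha => ?_
      rw [mem_sdiff] at ha
      obtain ⟨s, hs, has⟩ := mem_NS.1 ha.1
      refine mem_filter.2 ⟨mem_univ _, H940.mem_IL.2 fun s' hs' => ?_, s, hs, has⟩
      rw [mU]
      right
      intro hc
      exact ha.2 (mem_NS.2 ⟨s', hc, hs'⟩)
    omega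
  have hgap := gap hBU hR hCc
  have hno := nogap hN hOU (fun a b _ hab => (mU a b).2 (Or.inr hab))
  rw [sum_sub_distrib, sum_sub_distrib] at hgap
  unfold cost at *
  linarith

end Pairs

/-! ### Counterexamples with the fewest arcs -/

section Graph

/-- Second out-neighbourhood for the out-neighbourhood function `O`. -/
def S2 (O : V → Finset V) (v : V) : Finset V := ((O v).biUnion O) \ insert v (O v)

/-- Closed out-neighbourhood. -/
def cl (O : V → Finset V) (v : V) : Finset V := insert v (O v)

/-- A counterexample, given by its out-neighbourhoods. -/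
structure CE (O : V → Finset V) : Prop where
  anti : ∀ u v, v ∈ O u → u ∉ O v
  big : ∀ v, (S2 O v).card < (O v).card

variable {O : V → Finset V}

theorem mem_cl {v x : V} : x ∈ cl O v ↔ x = v ∨ x ∈ O v := by simp [cl]

theorem self_cl (v : V) : v ∈ cl O v := mem_cl.2 (Or.inl rfl)

theorem mem_S2 {v x : V} : x ∈ S2 O v ↔ (∃ u ∈ O v, x ∈ O u) ∧ x ≠ v ∧ x ∉ O v := by
  simp only [S2, mem_sdiff, mem_biUnion, mem_insert, not_or]

theorem gset (h : CE O) (hmin : ∀ O' : V → Finset V, CE O' →
    ∑ v, (O v).card ≤ ∑ v, (O' v).card) {X : Finset V} (hX : NS (cl O) X ≠ X) :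
    cW (cl O) univ (NS (cl O) X) < cW (cl O) univ X := by
  classical
  by_contra hcon
  rw [not_lt] at hcon
  set L := NS (cl O) X \ X with hL
  let d : Finset V → ℤ := fun T => ((NS (cl O) T \ X).card : ℤ) - 2 * T.card
  have hsubX : X ⊆ NS (cl O) X := sub_NS self_cl X
  have hLne : L.Nonempty := by
    rw [nonempty_iff_ne_empty]
    intro he
    exact hX (subset_antisymm (sdiff_eq_empty_iff_subset.1 he) hsubX)
  have hXL : NS (cl O) X = X ∪ L := by
    rw [hL, union_sdiff_of_subset hsubX]
  have hdisj : Disjoint X L := disjoint_sdiff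
  have hdL : 0 ≤ d L := by
    have e1 : (NS (cl O) X).card = X.card + L.card := by
      rw [hXL, card_union_of_disjoint hdisj]
    have e2 : NS (cl O) (NS (cl O) X) = X ∪ (NS (cl O) L \ X) := by
      have e3 : NS (cl O) (NS (cl O) X) = NS (cl O) X ∪ NS (cl O) L := by
        conv_lhs => rw [hXL]
        rw [NS_union]
      rw [e3, hXL]
      ext x
      simp only [mem_union, mem_sdiff]
      constructor
      · rintro ((hx | hx) | hx)
        · exact Or.inl hx
        · exact Or.inr ⟨sub_NS self_cl L hx, fun hx' => disjoint_left.1 hdisj hx' hx⟩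
        · by_cases hx' : x ∈ X
          · exact Or.inl hx'
          · exact Or.inr ⟨hx, hx'⟩
      · rintro (hx | hx)
        · exact Or.inl (Or.inl hx)
        · exact Or.inr hx.1
    have e4 : (NS (cl O) (NS (cl O) X)).card = X.card + (NS (cl O) L \ X).card := by
      rw [e2, card_union_of_disjoint disjoint_sdiff]
    unfold cW at hcon
    rw [inter_univ, inter_univ] at hcon
    simp only [d]
    omega
  obtain ⟨T, hT, hTm⟩ := exists_min_image L.ssubsets d ⟨∅, by
    rw [mem_ssubsets]
    exact empty_ssubset.2 hLne⟩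
  rw [mem_ssubsets] at hT
  have hmd : ∀ T', T' ⊆ L → d T ≤ d T' := by
    intro T' hT'
    by_cases e : T' = L
    · have h0 : d T ≤ d ∅ := hTm ∅ (by
        rw [mem_ssubsets]
        exact empty_ssubset.2 hLne)
      have h00 : d ∅ = 0 := by simp [d, NS]
      rw [e]
      linarith
    · exact hTm T' (mem_ssubsets.2 (hT'.ssubset_of_ne e))
  let O' : V → Finset V := fun y => if y ∈ X then O y \ (L \ T) else O y
  have hO'X : ∀ y, y ∈ X → O' y = O y \ (L \ T) := fun y hy => if_pos hy
  have hO'n : ∀ y, y ∉ X → O' y = O y := fun y hy => if_neg hy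
  have hO's : ∀ y, O' y ⊆ O y := by
    intro y
    by_cases hy : y ∈ X
    · rw [hO'X y hy]
      exact sdiff_subset
    · rw [hO'n y hy]
  -- the out-neighbours of `X` are in `X ∪ L`
  have hXO : ∀ y ∈ X, ∀ z ∈ O y, z ∈ X ∨ z ∈ L := by
    intro y hy z hz
    have : z ∈ NS (cl O) X := mem_NS.2 ⟨y, hy, mem_cl.2 (Or.inr hz)⟩
    rw [hXL, mem_union] at this
    exact this
  have hCE' : CE O' := by
    refine ⟨fun u v huv hvu => h.anti u v (hO's u huv) (hO's v hvu), fun y => ?_⟩
    by_cases hy : y ∈ X
    · set D := O y ∩ (L \ T) with hD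
      set E := NS (cl O) D \ (NS (cl O) T ∪ X) with hE
      have hDL : D ⊆ L := inter_subset_right.trans sdiff_subset
      have hDT : Disjoint T D := by
        rw [disjoint_left]
        intro x hx hx'
        exact (mem_sdiff.1 (mem_inter.1 hx').2).2 hx
      have c1 : (O' y).card = (O y).card - D.card := by
        rw [hO'X y hy, hD, card_sdiff, inter_comm]
      have c2 : D.card ≤ (O y).card := card_le_card inter_subset_left
      have c3 : S2 O' y ⊆ (S2 O y ∪ D) \ E := by
        intro w hw
        rw [mem_S2] at hw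
        obtain ⟨⟨u, hu, hwu⟩, hwy, hwn⟩ := hw
        have hwO : w ∈ O u := hO's u hwu
        rw [mem_sdiff, mem_union]
        constructor
        · by_cases hwy' : w ∈ O y
          · right
            rw [hD, mem_inter]
            refine ⟨hwy', ?_⟩
            by_contra hc
            exact hwn (by
              rw [hO'X y hy]
              exact mem_sdiff.2 ⟨hwy', hc⟩)
          · left
            exact mem_S2.2 ⟨⟨u, hO's y hu, hwO⟩, hwy, hwy'⟩
        · intro hwE
          rw [hE, mem_sdiff, mem_union, not_or] at hwE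
          have hu' := hu
          rw [hO'X y hy, mem_sdiff] at hu'
          rcases hXO y hy u hu'.1 with hux | hul
          · have hwu' := hwu
            rw [hO'X u hux, mem_sdiff] at hwu'
            rcases hXO u hux w hwO with g | g
            · exact hwE.2.2 g
            · refine hwu'.2 (mem_sdiff.2 ⟨g, fun hwT => hwE.2.1 (sub_NS self_cl T hwT)⟩)
          · have huT : u ∈ T := by
              by_contra hc
              exact hu'.2 (mem_sdiff.2 ⟨hul, hc⟩)
            exact hwE.2.1 (mem_NS.2 ⟨u, huT, mem_cl.2 (Or.inr hwO)⟩)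
      have c4 : E ⊆ S2 O y ∪ D := by
        intro e he
        rw [hE, mem_sdiff, mem_union, not_or] at he
        obtain ⟨dd, hdd, hed⟩ := mem_NS.1 he.1
        rw [mem_union]
        by_cases hey : e ∈ O y
        · right
          rw [hD, mem_inter]
          refine ⟨hey, mem_sdiff.2 ⟨?_, fun heT => he.2.1 (sub_NS self_cl T heT)⟩⟩
          rcases hXO y hy e hey with g | g
          · exact absurd g he.2.2
          · exact g
        · rcases mem_cl.1 hed with e1 | e1
          · right
            rw [e1]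
            exact hdd
          · left
            refine mem_S2.2 ⟨⟨dd, (mem_inter.1 hdd).1, e1⟩, fun e2 => he.2.2 (e2 ▸ hy), hey⟩
      have c5 : (S2 O' y).card ≤ (S2 O y ∪ D).card - E.card := by
        rw [← card_sdiff_of_subset c4]
        exact card_le_card c3
      have c6 : (S2 O y ∪ D).card ≤ (S2 O y).card + D.card := card_union_le _ _
      have c7 : 2 * D.card ≤ E.card := by
        have g1 := hmd (T ∪ D) (union_subset hT.1 hDL)
        have g2 : NS (cl O) (T ∪ D) \ X = (NS (cl O) T \ X) ∪ E := by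
          rw [NS_union, hE]
          ext x
          simp only [mem_union, mem_sdiff, not_or]
          tauto
        have g3 : Disjoint (NS (cl O) T \ X) E := by
          rw [disjoint_left]
          intro x hx hx'
          rw [hE, mem_sdiff, mem_union, not_or] at hx'
          exact hx'.2.1 (mem_sdiff.1 hx).1
        simp only [d] at g1
        rw [g2, card_union_of_disjoint g3, card_union_of_disjoint hDT] at g1
        push_cast at g1
        omega
      have c8 := h.big y
      have c9 : E.card ≤ (S2 O y ∪ D).card := card_le_card c4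
      omega
    · have e1 : O' y = O y := hO'n y hy
      have e2 : S2 O' y ⊆ S2 O y := by
        intro w hw
        rw [mem_S2] at hw ⊢
        rw [e1] at hw
        obtain ⟨⟨u, hu, hwu⟩, h2⟩ := hw
        exact ⟨⟨u, hu, hO's u hwu⟩, h2⟩
      rw [e1]
      exact (card_le_card e2).trans_lt (h.big y)
  have hlt : ∑ v, (O' v).card < ∑ v, (O v).card := by
    obtain ⟨z, hzL, hzT⟩ := exists_of_ssubset hT
    have hz' := (mem_sdiff.1 hzL)
    obtain ⟨x, hx, hzx⟩ := mem_NS.1 hz'.1
    rcases mem_cl.1 hzx with e | e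
    · exact absurd (e ▸ hx) hz'.2
    · refine sum_lt_sum (fun v _ => card_le_card (hO's v)) ⟨x, mem_univ _, ?_⟩
      refine card_lt_card ⟨hO's x, fun hc => ?_⟩
      have := hc e
      rw [hO'X x hx, mem_sdiff] at this
      exact this.2 (mem_sdiff.2 ⟨hzL, hzT⟩)
  exact absurd (hmin O' hCE') (not_le.2 hlt)

theorem no_CE [Nonempty V] (O : V → Finset V) : ¬ CE O := by
  classical
  intro h0
  obtain ⟨O, hO, hmin⟩ := exists_min_image (univ.filter fun O : V → Finset V => CE O)
    (fun O => ∑ v, (O v).card) ⟨O, by simp [h0]⟩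
  simp only [mem_filter, mem_univ, true_and] at hO hmin
  have hN : ∀ v, v ∈ cl O v := self_cl
  have hG : ∀ X : Finset V, NS (cl O) X ≠ X →
      cW (cl O) univ (NS (cl O) X) < cW (cl O) univ X := fun X hX =>
    gset hO hmin hX
  have hG' : ∀ X : Finset V, cW (cl O) univ (NS (cl O) X) ≤ cW (cl O) univ X := by
    intro X
    by_cases e : NS (cl O) X = X
    · rw [e]
    · exact (hG X e).le
  have hbase : Out (cl O) (cl O) (cl O) := by
    refine ⟨fun _ => subset_refl _, fun _ => subset_refl _, fun a b h1 h2 => ?_⟩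
    rcases mem_cl.1 h1 with e | e
    · exact e.symm
    · rcases mem_cl.1 h2 with e' | e'
      · exact e'
      · exact absurd e' (hO.anti a b e)
  obtain ⟨p, hp, hpm⟩ := exists_min_image
    (univ.filter fun p : (V → Finset V) × (V → Finset V) => Out (cl O) p.1 p.2)
    (fun p => cost (cl O) p.1 p.2) ⟨(cl O, cl O), by simp [hbase]⟩
  simp only [mem_filter, mem_univ, true_and] at hp hpm
  obtain ⟨B, C⟩ := p
  simp only at hp hpm
  have hclub := club hN hp (fun B' C' h' => hpm (B', C') h')
  have hnext : cost (cl O) B C ≤ cost (cl O) (fun a => NS (cl O) (IL (cl O) B a))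
      (fun a => NS (cl O) (IL (cl O) C a)) := hpm (_, _) (hp.next hN)
  have hall : (∀ a, NS (cl O) (IL (cl O) B a) = IL (cl O) B a) ∧
      ∀ a, NS (cl O) (IL (cl O) C a) = IL (cl O) C a := by
    have hle := hnext
    unfold cost at hclub hle
    have s1 : ∑ a, cW (cl O) univ (NS (cl O) (IL (cl O) B a)) ≤
        ∑ a, cW (cl O) univ (IL (cl O) B a) := sum_le_sum fun a _ => hG' _
    have s2 : ∑ a, cW (cl O) univ (NS (cl O) (IL (cl O) C a)) ≤
        ∑ a, cW (cl O) univ (IL (cl O) C a) := sum_le_sum fun a _ => hG' _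
    constructor
    · intro a
      by_contra hne
      have : ∑ a, cW (cl O) univ (NS (cl O) (IL (cl O) B a)) <
          ∑ a, cW (cl O) univ (IL (cl O) B a) :=
        sum_lt_sum (fun a _ => hG' _) ⟨a, mem_univ _, hG _ hne⟩
      linarith
    · intro a
      by_contra hne
      have : ∑ a, cW (cl O) univ (NS (cl O) (IL (cl O) C a)) <
          ∑ a, cW (cl O) univ (IL (cl O) C a) :=
        sum_lt_sum (fun a _ => hG' _) ⟨a, mem_univ _, hG _ hne⟩
      linarith
  obtain ⟨K, hK, hKm⟩ := exists_min_image
    (univ.filter fun K : Finset V => K.Nonempty ∧ NS (cl O) K ⊆ K) card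
    ⟨univ, by simp⟩
  simp only [mem_filter, mem_univ, true_and] at hK hKm
  obtain ⟨a, ha⟩ := hK.1
  obtain ⟨b, hb⟩ : (O a).Nonempty := by
    rw [← card_pos]
    exact (Nat.zero_le _).trans_lt (hO.big a)
  have hbK : b ∈ K := hK.2 (mem_NS.2 ⟨a, ha, mem_cl.2 (Or.inr hb)⟩)
  have hbY : b ∈ IL (cl O) C b := hp.symm.mem_IL b
  have hne : (IL (cl O) C b ∩ K).Nonempty := ⟨b, mem_inter.2 ⟨hbY, hbK⟩⟩
  have hcl : NS (cl O) (IL (cl O) C b ∩ K) ⊆ IL (cl O) C b ∩ K := by
    refine subset_inter ?_ ((NS_mono inter_subset_right).trans hK.2)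
    exact (NS_mono inter_subset_left).trans (hall.2 b).subset
  have heq : IL (cl O) C b ∩ K = K :=
    eq_of_subset_of_card_le inter_subset_right (hKm _ ⟨hne, hcl⟩)
  have haY : a ∈ IL (cl O) C b := by
    rw [← heq] at ha
    exact (mem_inter.1 ha).1
  have hbX : b ∈ NS (cl O) (IL (cl O) B a) :=
    mem_NS.2 ⟨a, hp.mem_IL a, mem_cl.2 (Or.inr hb)⟩
  have hab : a = b := hp.inner hN hbX (sub_NS hN _ haY)
  subst hab
  exact hO.anti a a hb hb

/-- **Seymour's second neighbourhood conjecture**, in terms of a relation. -/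
theorem seymour {V : Type*} [Fintype V] [Nonempty V] (arc : V → V → Prop)
    (hanti : ∀ u v, arc u v → ¬ arc v u) :
    ∃ v, Nat.card {u // arc v u} ≤ Nat.card {x // x ≠ v ∧ ¬ arc v x ∧ ∃ u, arc v u ∧ arc u x} := by
  classical
  by_contra hcon
  push Not at hcon
  refine no_CE (V := V) (fun v => univ.filter fun u => arc v u) ⟨fun u v h1 h2 => ?_, fun v => ?_⟩
  · simp only [mem_filter, mem_univ, true_and] at h1 h2
    exact hanti u v h1 h2
  · have h1 := hcon v
    rw [Nat.card_eq_fintype_card, Nat.card_eq_fintype_card, Fintype.card_subtype,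
      Fintype.card_subtype] at h1
    have h2 : S2 (fun v => univ.filter fun u => arc v u) v =
        univ.filter fun x => x ≠ v ∧ ¬ arc v x ∧ ∃ u, arc v u ∧ arc u x := by
      ext x
      rw [mem_S2]
      simp only [mem_filter, mem_univ, true_and]
      tauto
    rw [h2]
    exact h1

end Graph

end Vale.Agent.P038.H940
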